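import Vale.Agent.P060.Final

namespace Vale.Agent.Results.P060.A_full

open Vale.Agent.P060

theorem result :
    (¬ ∀ (m : ℕ) (G : SimpleGraph (Fin m)) (t : ℕ), 0 < m → 1 ≤ t →
      ¬ HasKMinor G (t + 1) → G.Colorable t) ∧
    ∀ ε : ℝ, 0 < ε → ∀ m0 : ℕ, ∃ m ≥ m0, ∃ G : SimpleGraph (Fin m), G.indepNum ≤ 2 ∧
      (∀ s, HasConnMatching G s → (s : ℝ) < ε * m) ∧
      (∀ t, HasKMinor G t → (t : ℝ) ≤ (1 / 3 + ε) * m) ∧
      ∀ t, G.Colorable t → m ≤ 2 * t := hadwiger_false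

end Vale.Agent.Results.P060.A_full
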